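import Vale.Agent.Lib.P154.Neg.LP.Base

/-!
The data of a certificate for a restricted range of `theta`, with all its checks.
-/

namespace Vale.Agent.Lib.P154.Neg.B4730

open Vale.Agent.Lib.P154.Neg.Kron Vale.Agent.Lib.P154.Neg Vale.Agent.Lib.P154.Neg.Cst

def tX_1 : CT := (.leaf [130, 6371, 312180] [48, 48, 48])
def tX_4 : CT := (.leaf [169, 8282, 405819] [48, 48, 48])
def tX_6 : CT := (.leaf [171, 8380, 410621] [48, 48, 48])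
def tX_8 : CT := (.leaf [202, 9899, 485052] [48, 48, 48])
def tX_10 : CT := (.leaf [224, 10977, 537874] [48, 48, 48])
def tX_11 : CT := (.s12 (.leaf [230, 11271, 552280] [48, 48, 48]) (.s02 (.leaf [254, 12447, 609904] [48, 48, 48]) (.s02 (.leaf [266, 13035, 638716] [48, 48, 48]) (.s12 (.leaf [259, 12692, 621909] [48, 48, 48]) (.leaf [249, 12202, 597899] [48, 48, 48])))))
def tX_9 : CT := .s01 tX_10 tX_11
def tX_7 : CT := .s02 tX_8 tX_9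
def tX_5 : CT := .s12 tX_6 tX_7
def tX_3 : CT := .s01 tX_4 tX_5
def tX_13 : CT := (.leaf [169, 8282, 405819] [48, 48, 48])
def tX_15 : CT := (.leaf [181, 8870, 434631] [48, 48, 48])
def tX_17 : CT := (.leaf [196, 9605, 470646] [48, 48, 48])
def tX_18 : CT := (.s12 (.leaf [204, 9997, 489854] [48, 48, 48]) (.s02 (.leaf [215, 10536, 516265] [48, 48, 48]) (.s12 (.leaf [222, 10879, 533072] [48, 48, 48]) (.s02 (.leaf [230, 11271, 552280] [48, 48, 48]) (.leaf [212, 10389, 509062] [48, 48, 48])))))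
def tX_16 : CT := .s02 tX_17 tX_18
def tX_14 : CT := .s12 tX_15 tX_16
def tX_12 : CT := .s02 tX_13 tX_14
def tX_2 : CT := .s12 tX_3 tX_12
def tX_0 : CT := .s02 tX_1 tX_2
def tY1_4 : CT := (.leaf [615, 30136, 1476665] [48, 48, 48])
def tY1_5 : CT := (.leaf [642, 31459, 1541492] [48, 48, 48])
def tY1_3 : CT := .s02 tY1_4 tY1_5
def tY1_6 : CT := (.leaf [628, 30773, 1507878] [48, 48, 48])
def tY1_2 : CT := .s02 tY1_3 tY1_6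
def tY1_7 : CT := (.leaf [612, 29989, 1469462] [48, 48, 48])
def tY1_1 : CT := .s02 tY1_2 tY1_7
def tY1_8 : CT := (.leaf [590, 28911, 1416640] [48, 48, 48])
def tY1_0 : CT := .s02 tY1_1 tY1_8
def tY2_0 : CT := (.leaf [431, 15948, 590077] [36, 36, 36])
def tQ1_1 : BT := (.split 1 (16) (.split 3 (6) (.leaf [359, 7899, 86890, 1390241] [21, 10, 15, 6]) (.leaf [360, 7921, 87132, 1394113] [21, 10, 15, 6])) (.split 3 (6) (.split 3 (3) (.leaf [360, 7921, 87132, 1394113] [21, 10, 15, 6]) (.leaf [360, 7921, 87132, 1394113] [21, 10, 15, 6])) (.leaf [361, 7943, 87374, 1397985] [21, 10, 15, 6])))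
def tQ1_2 : BT := (.leaf [361, 7943, 87374, 1397985] [21, 10, 15, 6])
def tQ1_0 : BT := .split 3 (12) tQ1_1 tQ1_2
def tQ3_4 : BT := (.split 1 (8) (.leaf [404, 6465, 71116, 1137857] [15, 10, 15, 6]) (.split 0 (12) (.split 3 (12) (.leaf [404, 6465, 71116, 1137857] [15, 10, 15, 6]) (.leaf [405, 6481, 71292, 1140673] [15, 10, 15, 6])) (.leaf [405, 6481, 71292, 1140673] [15, 10, 15, 6])))
def tQ3_8 : BT := (.leaf [405, 6481, 71292, 1140673] [15, 10, 15, 6])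
def tQ3_9 : BT := (.split 0 (10) (.split 3 (42) (.leaf [405, 6481, 71292, 1140673] [15, 10, 15, 6]) (.split 1 (4) (.leaf [406, 6497, 71468, 1143489] [15, 10, 15, 6]) (.leaf [406, 6497, 71468, 1143489] [15, 10, 15, 6]))) (.split 1 (4) (.leaf [406, 6497, 71468, 1143489] [15, 10, 15, 6]) (.leaf [406, 6497, 71468, 1143489] [15, 10, 15, 6])))
def tQ3_7 : BT := .split 3 (36) tQ3_8 tQ3_9
def tQ3_10 : BT := (.leaf [406, 6497, 71468, 1143489] [15, 10, 15, 6])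
def tQ3_6 : BT := .split 0 (12) tQ3_7 tQ3_10
def tQ3_11 : BT := (.split 0 (12) (.leaf [405, 6481, 71292, 1140673] [15, 10, 15, 6]) (.leaf [406, 6497, 71468, 1143489] [15, 10, 15, 6]))
def tQ3_5 : BT := .split 1 (8) tQ3_6 tQ3_11
def tQ3_3 : BT := .split 3 (24) tQ3_4 tQ3_5
def tQ3_12 : BT := (.leaf [406, 6497, 71468, 1143489] [15, 10, 15, 6])
def tQ3_2 : BT := .split 0 (16) tQ3_3 tQ3_12
def tQ3_15 : BT := (.leaf [407, 6513, 71644, 1146305] [15, 10, 15, 6])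
def tQ3_18 : BT := (.leaf [407, 6513, 71644, 1146305] [15, 10, 15, 6])
def tQ3_20 : BT := (.leaf [407, 6513, 71644, 1146305] [15, 10, 15, 6])
def tQ3_23 : BT := (.leaf [408, 6529, 71820, 1149121] [15, 10, 15, 6])
def tQ3_26 : BT := (.leaf [408, 6529, 71820, 1149121] [15, 10, 15, 6])
def tQ3_28 : BT := (.leaf [408, 6529, 71820, 1149121] [15, 10, 15, 6])
def tQ3_29 : BT := (.split 3 (45) (.leaf [408, 6529, 71820, 1149121] [15, 10, 15, 6]) (.split 1 (1) (.split 2 (472) (.leaf [408, 6529, 71820, 1149121] [15, 10, 15, 6]) (.split 0 (37) (.leaf [408, 6529, 71820, 1149121] [15, 10, 15, 6]) (.leaf [408, 6529, 71820, 1149121] [15, 10, 15, 6]))) (.leaf [408, 6529, 71820, 1149121] [15, 10, 15, 6])))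
def tQ3_27 : BT := .split 2 (471) tQ3_28 tQ3_29
def tQ3_25 : BT := .split 3 (42) tQ3_26 tQ3_27
def tQ3_30 : BT := (.leaf [408, 6529, 71820, 1149121] [15, 10, 15, 6])
def tQ3_24 : BT := .split 0 (38) tQ3_25 tQ3_30
def tQ3_22 : BT := .split 3 (36) tQ3_23 tQ3_24
def tQ3_31 : BT := (.leaf [408, 6529, 71820, 1149121] [15, 10, 15, 6])
def tQ3_21 : BT := .split 1 (2) tQ3_22 tQ3_31
def tQ3_19 : BT := .split 0 (36) tQ3_20 tQ3_21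
def tQ3_17 : BT := .split 3 (24) tQ3_18 tQ3_19
def tQ3_32 : BT := (.leaf [408, 6529, 71820, 1149121] [15, 10, 15, 6])
def tQ3_16 : BT := .split 1 (4) tQ3_17 tQ3_32
def tQ3_14 : BT := .split 0 (32) tQ3_15 tQ3_16
def tQ3_33 : BT := (.leaf [408, 6529, 71820, 1149121] [15, 10, 15, 6])
def tQ3_13 : BT := .split 1 (8) tQ3_14 tQ3_33
def tQ3_1 : BT := .split 0 (24) tQ3_2 tQ3_13
def tQ3_36 : BT := (.split 0 (16) (.split 3 (24) (.split 3 (12) (.leaf [405, 6481, 71292, 1140673] [15, 10, 15, 6]) (.leaf [405, 6481, 71292, 1140673] [15, 10, 15, 6])) (.leaf [406, 6497, 71468, 1143489] [15, 10, 15, 6])) (.leaf [407, 6513, 71644, 1146305] [15, 10, 15, 6]))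
def tQ3_38 : BT := (.split 0 (16) (.split 3 (12) (.split 0 (12) (.split 3 (6) (.leaf [404, 6465, 71116, 1137857] [15, 10, 15, 6]) (.leaf [405, 6481, 71292, 1140673] [15, 10, 15, 6])) (.leaf [405, 6481, 71292, 1140673] [15, 10, 15, 6])) (.leaf [405, 6481, 71292, 1140673] [15, 10, 15, 6])) (.leaf [407, 6513, 71644, 1146305] [15, 10, 15, 6]))
def tQ3_39 : BT := (.leaf [406, 6497, 71468, 1143489] [15, 10, 15, 6])
def tQ3_37 : BT := .split 3 (24) tQ3_38 tQ3_39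
def tQ3_35 : BT := .split 1 (24) tQ3_36 tQ3_37
def tQ3_40 : BT := (.leaf [409, 6545, 71996, 1151937] [15, 10, 15, 6])
def tQ3_34 : BT := .split 0 (24) tQ3_35 tQ3_40
def tQ3_0 : BT := .split 1 (16) tQ3_1 tQ3_34

/-- the data -/
def C : Cst where
  A := ⟨3, 3, 0, 3, 2, 1⟩
  a := (424, 45)
  b := (148, 5)
  c := (156, 5)
  r1 := (3, 4)
  r2 := (11, 12)
  rho1 := (0, 1)
  rho2 := (11, 12)
  g := (9, 25000)
  er := (1, 2)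
  kap := (0, 1)
  thm := (3, 50)
  t1 := (469, 1000)
  t2 := (473, 1000)
  m0 := (491, 1000)
  kp0 := (3, 2)
  W := (.add (.add (.add (.add (.add (.add (.add (.mul (.rat (-2743) 100000) (.pow (.var 1) 2)) (.mul (.rat (1) 2) (.var 0))) (.mul (.mul (.rat (12763) 500000) (.var 0)) (.var 1))) (.mul (.mul (.rat (-2317) 500000) (.var 0)) (.pow (.var 1) 2))) (.mul (.rat (983) 40000) (.pow (.var 0) 2))) (.mul (.mul (.rat (-1137) 250000) (.pow (.var 0) 2)) (.var 1))) (.mul (.rat (-219) 100000) (.pow (.var 0) 3))) (.mul (.rat (579) 200000) (.pow (.var 0) 4)))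
  V1h := (.add (.add (.add (.add (.add (.add (.add (.add (.mul (.rat (-1) 16) (.var 1)) (.mul (.rat (-27631) 10000000) (.pow (.var 1) 2))) (.mul (.rat (1) 8) (.var 0))) (.mul (.mul (.rat (-82231) 5000000) (.var 0)) (.var 1))) (.mul (.mul (.rat (426519) 10000000) (.var 0)) (.pow (.var 1) 2))) (.mul (.rat (34601) 2000000) (.pow (.var 0) 2))) (.mul (.mul (.rat (-146921) 5000000) (.pow (.var 0) 2)) (.var 1))) (.mul (.rat (35551) 10000000) (.pow (.var 0) 3))) (.mul (.rat (54881) 10000000) (.pow (.var 0) 4)))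
  V2h := (.add (.add (.add (.add (.mul (.rat (1) 216) (.var 1)) (.mul (.rat (-15787) 10000000) (.pow (.var 1) 2))) (.mul (.mul (.rat (13649) 10000000) (.var 0)) (.var 1))) (.mul (.rat (-5939) 10000000) (.pow (.var 0) 2))) (.mul (.rat (-163) 5000000) (.pow (.var 0) 3)))
  Xi := (.add (.add (.add (.rat (61) 15) (.mul (.rat (-3293669) 500000) (.var 0))) (.mul (.rat (7837847) 1000000) (.pow (.var 0) 2))) (.mul (.rat (-17164291) 1000000) (.pow (.var 0) 3)))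
  Ek := (.rat 0 1)
  Sz := (.add (.add (.add (.add (.mul (.rat (1) 3) (.var 0)) (.mul (.rat (1) 9) (.pow (.var 0) 2))) (.mul (.rat (5) 81) (.pow (.var 0) 3))) (.mul (.rat (10) 243) (.pow (.var 0) 4))) (.mul (.rat (22) 729) (.pow (.var 0) 5)))
  a0 := 500
  b0 := 559
  c0 := 869
  bRho := (0, 1, 5)
  bBeta := (0, 32, 32)
  bT := (469, 473, 1000)
  bKap := (0, 24, 16)
  bEps := (0, 1, 1000)
  bSig := (0, 49, 200)
  bNu := (0, 817, 1000)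
  bTh := (0, 48, 800)
  bZ := (0, 441417317, 500000000)
  tX := tX_0
  tY1 := tY1_0
  tY2 := tY2_0
  tM1 := (.leaf [11, 78, 547] [6, 6, 6])
  tM2 := (.leaf [10, 71, 498] [6, 6, 6])
  tN1 := (.leaf [13, 92, 645] [6, 6, 6])
  tN2 := (.leaf [12, 85, 596] [6, 6, 6])
  tQ1 := tQ1_0
  tQ2 := (.leaf [620, 13641, 218257, 2400828] [21, 15, 10, 15])
  tW := (.leaf [83, 748] [8, 8])
  tK := (.leaf [141, 988] [6, 5])
  tS1 := (.leaf [101, 506] [4, 4])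
  tS2 := (.leaf [107, 536] [4, 4])
  tC := (.leaf [86, 345, 1381] [3, 3, 4])
  tXi := (.leaf [57, 229] [3, 0])
  tE := (.leaf [1, 2] [0, 0])
  tZ := (.leaf [480] [15])

/-- the further data -/
def X : Ext where
  rho0 := (1, 5)
  bR3 := (8, 40, 40)
  bRW := (0, 1, 1)
  tQ3 := tQ3_0

def btQ1_root : List (ℤ × ℤ × ℕ) := [C.bRho, C.bBeta, C.bT, C.bKap]

def btQ1_0l : List (ℤ × ℤ × ℕ) := btQ1_root.set 3 ((btQ1_root.getD 3 (0, 1, 1)).1, (12), (btQ1_root.getD 3 (0, 1, 1)).2.2)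

def btQ1_0r : List (ℤ × ℤ × ℕ) := btQ1_root.set 3 ((12), (btQ1_root.getD 3 (0, 1, 1)).2.1, (btQ1_root.getD 3 (0, 1, 1)).2.2)

def btQ3_root : List (ℤ × ℤ × ℕ) := [X.bR3, C.bBeta, C.bT, C.bTh]

def btQ3_0l : List (ℤ × ℤ × ℕ) := btQ3_root.set 1 ((btQ3_root.getD 1 (0, 1, 1)).1, (16), (btQ3_root.getD 1 (0, 1, 1)).2.2)

def btQ3_0r : List (ℤ × ℤ × ℕ) := btQ3_root.set 1 ((16), (btQ3_root.getD 1 (0, 1, 1)).2.1, (btQ3_root.getD 1 (0, 1, 1)).2.2)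

def btQ3_1l : List (ℤ × ℤ × ℕ) := btQ3_0l.set 0 ((btQ3_0l.getD 0 (0, 1, 1)).1, (24), (btQ3_0l.getD 0 (0, 1, 1)).2.2)

def btQ3_1r : List (ℤ × ℤ × ℕ) := btQ3_0l.set 0 ((24), (btQ3_0l.getD 0 (0, 1, 1)).2.1, (btQ3_0l.getD 0 (0, 1, 1)).2.2)

def btQ3_2l : List (ℤ × ℤ × ℕ) := btQ3_1l.set 0 ((btQ3_1l.getD 0 (0, 1, 1)).1, (16), (btQ3_1l.getD 0 (0, 1, 1)).2.2)

def btQ3_2r : List (ℤ × ℤ × ℕ) := btQ3_1l.set 0 ((16), (btQ3_1l.getD 0 (0, 1, 1)).2.1, (btQ3_1l.getD 0 (0, 1, 1)).2.2)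

def btQ3_3l : List (ℤ × ℤ × ℕ) := btQ3_2l.set 3 ((btQ3_2l.getD 3 (0, 1, 1)).1, (24), (btQ3_2l.getD 3 (0, 1, 1)).2.2)

def btQ3_3r : List (ℤ × ℤ × ℕ) := btQ3_2l.set 3 ((24), (btQ3_2l.getD 3 (0, 1, 1)).2.1, (btQ3_2l.getD 3 (0, 1, 1)).2.2)

def btQ3_5l : List (ℤ × ℤ × ℕ) := btQ3_3r.set 1 ((btQ3_3r.getD 1 (0, 1, 1)).1, (8), (btQ3_3r.getD 1 (0, 1, 1)).2.2)

def btQ3_5r : List (ℤ × ℤ × ℕ) := btQ3_3r.set 1 ((8), (btQ3_3r.getD 1 (0, 1, 1)).2.1, (btQ3_3r.getD 1 (0, 1, 1)).2.2)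

def btQ3_6l : List (ℤ × ℤ × ℕ) := btQ3_5l.set 0 ((btQ3_5l.getD 0 (0, 1, 1)).1, (12), (btQ3_5l.getD 0 (0, 1, 1)).2.2)

def btQ3_6r : List (ℤ × ℤ × ℕ) := btQ3_5l.set 0 ((12), (btQ3_5l.getD 0 (0, 1, 1)).2.1, (btQ3_5l.getD 0 (0, 1, 1)).2.2)

def btQ3_7l : List (ℤ × ℤ × ℕ) := btQ3_6l.set 3 ((btQ3_6l.getD 3 (0, 1, 1)).1, (36), (btQ3_6l.getD 3 (0, 1, 1)).2.2)

def btQ3_7r : List (ℤ × ℤ × ℕ) := btQ3_6l.set 3 ((36), (btQ3_6l.getD 3 (0, 1, 1)).2.1, (btQ3_6l.getD 3 (0, 1, 1)).2.2)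

def btQ3_13l : List (ℤ × ℤ × ℕ) := btQ3_1r.set 1 ((btQ3_1r.getD 1 (0, 1, 1)).1, (8), (btQ3_1r.getD 1 (0, 1, 1)).2.2)

def btQ3_13r : List (ℤ × ℤ × ℕ) := btQ3_1r.set 1 ((8), (btQ3_1r.getD 1 (0, 1, 1)).2.1, (btQ3_1r.getD 1 (0, 1, 1)).2.2)

def btQ3_14l : List (ℤ × ℤ × ℕ) := btQ3_13l.set 0 ((btQ3_13l.getD 0 (0, 1, 1)).1, (32), (btQ3_13l.getD 0 (0, 1, 1)).2.2)

def btQ3_14r : List (ℤ × ℤ × ℕ) := btQ3_13l.set 0 ((32), (btQ3_13l.getD 0 (0, 1, 1)).2.1, (btQ3_13l.getD 0 (0, 1, 1)).2.2)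

def btQ3_16l : List (ℤ × ℤ × ℕ) := btQ3_14r.set 1 ((btQ3_14r.getD 1 (0, 1, 1)).1, (4), (btQ3_14r.getD 1 (0, 1, 1)).2.2)

def btQ3_16r : List (ℤ × ℤ × ℕ) := btQ3_14r.set 1 ((4), (btQ3_14r.getD 1 (0, 1, 1)).2.1, (btQ3_14r.getD 1 (0, 1, 1)).2.2)

def btQ3_17l : List (ℤ × ℤ × ℕ) := btQ3_16l.set 3 ((btQ3_16l.getD 3 (0, 1, 1)).1, (24), (btQ3_16l.getD 3 (0, 1, 1)).2.2)

def btQ3_17r : List (ℤ × ℤ × ℕ) := btQ3_16l.set 3 ((24), (btQ3_16l.getD 3 (0, 1, 1)).2.1, (btQ3_16l.getD 3 (0, 1, 1)).2.2)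

def btQ3_19l : List (ℤ × ℤ × ℕ) := btQ3_17r.set 0 ((btQ3_17r.getD 0 (0, 1, 1)).1, (36), (btQ3_17r.getD 0 (0, 1, 1)).2.2)

def btQ3_19r : List (ℤ × ℤ × ℕ) := btQ3_17r.set 0 ((36), (btQ3_17r.getD 0 (0, 1, 1)).2.1, (btQ3_17r.getD 0 (0, 1, 1)).2.2)

def btQ3_21l : List (ℤ × ℤ × ℕ) := btQ3_19r.set 1 ((btQ3_19r.getD 1 (0, 1, 1)).1, (2), (btQ3_19r.getD 1 (0, 1, 1)).2.2)

def btQ3_21r : List (ℤ × ℤ × ℕ) := btQ3_19r.set 1 ((2), (btQ3_19r.getD 1 (0, 1, 1)).2.1, (btQ3_19r.getD 1 (0, 1, 1)).2.2)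

def btQ3_22l : List (ℤ × ℤ × ℕ) := btQ3_21l.set 3 ((btQ3_21l.getD 3 (0, 1, 1)).1, (36), (btQ3_21l.getD 3 (0, 1, 1)).2.2)

def btQ3_22r : List (ℤ × ℤ × ℕ) := btQ3_21l.set 3 ((36), (btQ3_21l.getD 3 (0, 1, 1)).2.1, (btQ3_21l.getD 3 (0, 1, 1)).2.2)

def btQ3_24l : List (ℤ × ℤ × ℕ) := btQ3_22r.set 0 ((btQ3_22r.getD 0 (0, 1, 1)).1, (38), (btQ3_22r.getD 0 (0, 1, 1)).2.2)

def btQ3_24r : List (ℤ × ℤ × ℕ) := btQ3_22r.set 0 ((38), (btQ3_22r.getD 0 (0, 1, 1)).2.1, (btQ3_22r.getD 0 (0, 1, 1)).2.2)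

def btQ3_25l : List (ℤ × ℤ × ℕ) := btQ3_24l.set 3 ((btQ3_24l.getD 3 (0, 1, 1)).1, (42), (btQ3_24l.getD 3 (0, 1, 1)).2.2)

def btQ3_25r : List (ℤ × ℤ × ℕ) := btQ3_24l.set 3 ((42), (btQ3_24l.getD 3 (0, 1, 1)).2.1, (btQ3_24l.getD 3 (0, 1, 1)).2.2)

def btQ3_27l : List (ℤ × ℤ × ℕ) := btQ3_25r.set 2 ((btQ3_25r.getD 2 (0, 1, 1)).1, (471), (btQ3_25r.getD 2 (0, 1, 1)).2.2)

def btQ3_27r : List (ℤ × ℤ × ℕ) := btQ3_25r.set 2 ((471), (btQ3_25r.getD 2 (0, 1, 1)).2.1, (btQ3_25r.getD 2 (0, 1, 1)).2.2)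

def btQ3_34l : List (ℤ × ℤ × ℕ) := btQ3_0r.set 0 ((btQ3_0r.getD 0 (0, 1, 1)).1, (24), (btQ3_0r.getD 0 (0, 1, 1)).2.2)

def btQ3_34r : List (ℤ × ℤ × ℕ) := btQ3_0r.set 0 ((24), (btQ3_0r.getD 0 (0, 1, 1)).2.1, (btQ3_0r.getD 0 (0, 1, 1)).2.2)

def btQ3_35l : List (ℤ × ℤ × ℕ) := btQ3_34l.set 1 ((btQ3_34l.getD 1 (0, 1, 1)).1, (24), (btQ3_34l.getD 1 (0, 1, 1)).2.2)

def btQ3_35r : List (ℤ × ℤ × ℕ) := btQ3_34l.set 1 ((24), (btQ3_34l.getD 1 (0, 1, 1)).2.1, (btQ3_34l.getD 1 (0, 1, 1)).2.2)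

def btQ3_37l : List (ℤ × ℤ × ℕ) := btQ3_35r.set 3 ((btQ3_35r.getD 3 (0, 1, 1)).1, (24), (btQ3_35r.getD 3 (0, 1, 1)).2.2)

def btQ3_37r : List (ℤ × ℤ × ℕ) := btQ3_35r.set 3 ((24), (btQ3_35r.getD 3 (0, 1, 1)).2.1, (btQ3_35r.getD 3 (0, 1, 1)).2.2)

end Vale.Agent.Lib.P154.Neg.B4730
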